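import Mathlib

/-! P139: interface definitions and the statements of the parts (see skel/P139/MATH.md).
`d = 12`, `p = 2m+1`, `n = 2m`, `γ = 1/n`. -/

open Complex Set Filter Topology MeasureTheory
open scoped ContDiff ComplexConjugate Laplacian

noncomputable section
namespace P139

abbrev E := EuclideanSpace ℝ (Fin 12)

/-- `γ = 1/n`, `n = 2m`. -/
def gam (m : ℕ) : ℝ := 1 / (2 * (m : ℝ))

/-- Self-similar profile in the variable `s = r²`. -/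
structure Prof (m : ℕ) where
  β : ℝ
  Θ : ℝ → ℂ
  ε : ℝ
  hε : 0 < ε
  smooth : ContDiffOn ℝ ∞ Θ (Ioi (-ε))
  ode : ∀ s : ℝ, -ε < s → 4 * s * deriv (deriv Θ) s + (24 + I * s) * deriv Θ s
      + (β + I * gam m) * Θ s = (Θ s * conj (Θ s)) ^ m * Θ s
  ne : ∀ s : ℝ, 0 ≤ s → Θ s ≠ 0
  symb : ∀ j : ℕ, ∃ C : ℝ, ∀ s : ℝ, 0 ≤ s →
      ‖iteratedDeriv j Θ s‖ ≤ C * (1 + s) ^ (-(gam m) - (j : ℝ))

variable {m : ℕ}

/-! ### Radial (ODE) mode stability -/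

def Prof.q (P : Prof m) (r : ℝ) : ℂ := P.Θ (r ^ 2)
def Prof.V1 (P : Prof m) (r : ℝ) : ℂ := ((m : ℂ) + 1) * (P.q r * conj (P.q r)) ^ m
def Prof.V2 (P : Prof m) (r : ℝ) : ℂ := (m : ℂ) * (P.q r * conj (P.q r)) ^ (m - 1) * P.q r ^ 2

/-- radial Laplacian in the sector of harmonic degree `l` -/
def rad (l : ℕ) (f : ℝ → ℂ) (r : ℝ) : ℂ :=
  deriv (deriv f) r + 11 / (r : ℂ) * deriv f r - (l : ℂ) * ((l : ℂ) + 10) / (r : ℂ) ^ 2 * f r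

def Prof.LF (P : Prof m) (l : ℕ) (f g : ℝ → ℂ) (r : ℝ) : ℂ :=
  -((gam m : ℂ) - I * P.β) * f r - (r : ℂ) / 2 * deriv f r + I * rad l f r
    - I * (P.V1 r * f r + P.V2 r * g r)
def Prof.LG (P : Prof m) (l : ℕ) (f g : ℝ → ℂ) (r : ℝ) : ℂ :=
  -((gam m : ℂ) + I * P.β) * g r - (r : ℂ) / 2 * deriv g r - I * rad l g r
    + I * (P.V1 r * g r + conj (P.V2 r) * f r)

/-- first symmetry mode of the sector: phase (`l = 0`, `λ = 0`), translation (`l = 1`, `λ = 1/2`) -/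
def Prof.z0 (P : Prof m) (l : ℕ) (r : ℝ) : ℂ :=
  if l = 0 then I * P.q r else if l = 1 then deriv P.q r else 0
/-- second symmetry mode: time translation (`l = 0`, `λ = 1`) -/
def Prof.z1 (P : Prof m) (l : ℕ) (r : ℝ) : ℂ :=
  if l = 0 then ((gam m : ℂ) - I * P.β) * P.q r + (r : ℂ) / 2 * deriv P.q r else 0

def Prof.InZ (P : Prof m) (l : ℕ) (f g : ℝ → ℂ) : Prop :=
  ∃ c₀ c₁ : ℂ, ∀ r : ℝ, 0 < r → f r = c₀ * P.z0 l r + c₁ * P.z1 l r ∧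
    g r = c₀ * conj (P.z0 l r) + c₁ * conj (P.z1 l r)

def Prof.ModeStable (P : Prof m) : Prop :=
  ∀ (l : ℕ) (lam : ℂ), 0 ≤ lam.re → ∀ f g : ℝ → ℂ,
    ContDiffOn ℝ 48 f (Ioi 0) → ContDiffOn ℝ 48 g (Ioi 0) →
    (∀ j ≤ 48, ∃ C : ℝ, ∀ r : ℝ, 0 < r →
      ‖iteratedDeriv j f r‖ ≤ C ∧ ‖iteratedDeriv j g r‖ ≤ C) →
    P.InZ l (fun r => P.LF l f g r - lam * f r) (fun r => P.LG l f g r - lam * g r) →
    P.InZ l f g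

/-! ### PDE mode stability on `ℝ^12` -/

def Prof.Q (P : Prof m) (y : E) : ℂ := P.Θ (‖y‖ ^ 2)
def Prof.W1 (P : Prof m) (y : E) : ℂ := ((m : ℂ) + 1) * (P.Q y * conj (P.Q y)) ^ m
def Prof.W2 (P : Prof m) (y : E) : ℂ := (m : ℂ) * (P.Q y * conj (P.Q y)) ^ (m - 1) * P.Q y ^ 2

/-- the 14 symmetry modes (first component): phase, time translation, space translations -/
def Prof.zm (P : Prof m) (i : Option (Option (Fin 12))) (y : E) : ℂ :=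
  match i with
  | none => I * P.Q y
  | some none => ((gam m : ℂ) - I * P.β) * P.Q y + fderiv ℝ P.Q y y / 2
  | some (some j) => fderiv ℝ P.Q y (EuclideanSpace.single j 1)

def Prof.InZZ (P : Prof m) (f g : E → ℂ) : Prop :=
  ∃ c : Option (Option (Fin 12)) → ℂ, ∀ y : E,
    f y = ∑ i, c i * P.zm i y ∧ g y = ∑ i, c i * conj (P.zm i y)

def Prof.PDEStable (P : Prof m) : Prop :=
  ∀ lam : ℂ, 0 ≤ lam.re → ∀ f g : E → ℂ, ContDiff ℝ 48 f → ContDiff ℝ 48 g →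
    (∀ j ≤ 48, ∃ C : ℝ, ∀ y : E, ‖iteratedFDeriv ℝ j f y‖ ≤ C ∧ ‖iteratedFDeriv ℝ j g y‖ ≤ C) →
    P.InZZ
      (fun y => -((gam m : ℂ) - I * P.β) * f y - fderiv ℝ f y y / 2 + I * (Δ f) y
        - I * (P.W1 y * f y + P.W2 y * g y) - lam * f y)
      (fun y => -((gam m : ℂ) + I * P.β) * g y - fderiv ℝ g y y / 2 - I * (Δ g) y
        + I * (P.W1 y * g y + conj (P.W2 y) * f y) - lam * g y) →
    P.InZZ f g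

/-! ### The limit problem `p = ∞` (variable `s = r²`, `f = r^l F(r²)`) -/

/-- `(𝓛_∞ - λ) F`, first component -/
def FreeF (β : ℝ) (l : ℕ) (lam : ℂ) (F : ℝ → ℂ) (s : ℝ) : ℂ :=
  I * (4 * s * deriv (deriv F) s + (24 + 4 * (l : ℂ)) * deriv F s) - s * deriv F s
    - (lam - I * β + (l : ℂ) / 2) * F s
/-- `(𝓛_∞ - λ) G`, second component -/
def FreeG (β : ℝ) (l : ℕ) (lam : ℂ) (G : ℝ → ℂ) (s : ℝ) : ℂ :=
  -I * (4 * s * deriv (deriv G) s + (24 + 4 * (l : ℂ)) * deriv G s) - s * deriv G s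
    - (lam + I * β + (l : ℂ) / 2) * G s

/-- the outgoing class: `M_k < ∞` for `7 ≤ k ≤ 41` -/
def Good (l : ℕ) (s₀ : ℝ) (F : ℝ → ℂ) : Prop :=
  ∀ k : ℕ, 7 ≤ k → k ≤ 41 →
    IntegrableOn (fun s : ℝ => ‖iteratedDeriv k F s‖ ^ 2 * s ^ (l + k + 5)) (Ioi s₀)

/-- limit symmetry modes in the variable `s` built from the exterior limit profile `Θ` -/
def y0 (Θ : ℝ → ℂ) (l : ℕ) (s : ℝ) : ℂ :=
  if l = 0 then I * Θ s else if l = 1 then 2 * deriv Θ s else 0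
def y1 (β : ℝ) (Θ : ℝ → ℂ) (l : ℕ) (s : ℝ) : ℂ :=
  if l = 0 then -(I * β) * Θ s + s * deriv Θ s else 0

def InY (β : ℝ) (Θ : ℝ → ℂ) (l : ℕ) (F G : ℝ → ℂ) : Prop :=
  ∃ c₀ c₁ : ℂ, ∀ s : ℝ, 0 < s → F s = c₀ * y0 Θ l s + c₁ * y1 β Θ l s ∧
    G s = c₀ * conj (y0 Θ l s) + c₁ * conj (y1 β Θ l s)

/-- mode stability of the free-boundary limit problem at `s₀ = R²` -/
def MSinf (β s₀ : ℝ) (Θ : ℝ → ℂ) : Prop :=
  ∀ (l : ℕ) (lam : ℂ), 0 ≤ lam.re → ∀ F G : ℝ → ℂ,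
    ContDiffOn ℝ ∞ F (Ioi 0) → ContDiffOn ℝ ∞ G (Ioi 0) → Good l s₀ F → Good l s₀ G →
    F s₀ + G s₀ = 0 → deriv F s₀ = deriv G s₀ →
    InY β Θ l (FreeF β l lam F) (FreeG β l lam G) → InY β Θ l F G

/-- Output of part MI: canonical outgoing solution `U β` (`l = 0`, `λ = 0`), a box `[x₁,x₂]×[β₁,β₂]`
for `(x, β) = (R²/4, β)`, the Miranda sign certificate and limit mode stability. -/
structure FreeData where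
  U : ℝ → ℝ → ℂ
  x₁ : ℝ
  x₂ : ℝ
  β₁ : ℝ
  β₂ : ℝ
  μ : ℝ
  hx : 2 < x₁ ∧ x₁ < x₂ ∧ x₂ < 4
  hβ : 3 / 10 < β₁ ∧ β₁ < β₂ ∧ β₂ < 4 / 10
  smooth : ∀ β ∈ Icc β₁ β₂, ContDiffOn ℝ ∞ (U β) (Ioi 0)
  ode : ∀ β ∈ Icc β₁ β₂, ∀ s : ℝ, 0 < s → FreeF β 0 0 (U β) s = 0
  symb : ∀ β ∈ Icc β₁ β₂, ∀ j : ℕ, ∃ C : ℝ, ∀ s : ℝ, 1 ≤ s →
    ‖iteratedDeriv j (U β) s‖ ≤ C * s ^ (-(j : ℝ))
  cont : ContinuousOn (fun p : ℝ × ℝ => U p.1 p.2) (Icc β₁ β₂ ×ˢ Ioi 0)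
  cont' : ContinuousOn (fun p : ℝ × ℝ => deriv (U p.1) p.2) (Icc β₁ β₂ ×ˢ Ioi 0)
  uniq : ∀ β ∈ Icc β₁ β₂, ∀ s₀ : ℝ, 0 < s₀ → ∀ F : ℝ → ℂ, ContDiffOn ℝ ∞ F (Ioi s₀) →
    (∀ s : ℝ, s₀ < s → FreeF β 0 0 F s = 0) → Good 0 (s₀ + 1) F →
    ∃ c : ℂ, ∀ s : ℝ, s₀ < s → F s = c * U β s
  ne : ∀ β ∈ Icc β₁ β₂, ∀ x ∈ Icc x₁ x₂, U β (4 * x) ≠ 0
  c₁ : ∀ β ∈ Icc β₁ β₂, 0 < (deriv (U β) (4 * x₁) / U β (4 * x₁)).re
    - μ * (deriv (U β) (4 * x₁) / U β (4 * x₁)).im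
  c₂ : ∀ β ∈ Icc β₁ β₂, (deriv (U β) (4 * x₂) / U β (4 * x₂)).re
    - μ * (deriv (U β) (4 * x₂) / U β (4 * x₂)).im < 0
  c₃ : ∀ x ∈ Icc x₁ x₂, 0 < (deriv (U β₁) (4 * x) / U β₁ (4 * x)).im
  c₄ : ∀ x ∈ Icc x₁ x₂, (deriv (U β₂) (4 * x) / U β₂ (4 * x)).im < 0
  ms : ∀ β ∈ Icc β₁ β₂, ∀ x ∈ Icc x₁ x₂, deriv (U β) (4 * x) = 0 →
    MSinf β (4 * x) (fun s => U β s / U β (4 * x))

/-- Output of part P: a sequence of profiles converging to the free-boundary limit. -/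
structure Lim (D : FreeData) where
  m : ℕ → ℕ
  P : ∀ j, Prof (m j)
  R : ℝ
  β : ℝ
  qi : ℝ → ℂ
  m_pos : ∀ j, 1 ≤ m j
  m_lim : Tendsto m atTop atTop
  R_pos : 0 < R
  hx : R ^ 2 / 4 ∈ Icc D.x₁ D.x₂
  hβ : β ∈ Icc D.β₁ D.β₂
  root : deriv (D.U β) (R ^ 2) = 0
  qi_def : ∀ r : ℝ, qi r = if |r| ≤ R then 1 else D.U β (r ^ 2) / D.U β (R ^ 2)
  qi_ne : ∀ r : ℝ, qi r ≠ 0
  β_lim : Tendsto (fun j => (P j).β) atTop (𝓝 β)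
  /-- (L2) `C¹` convergence on bounded sets -/
  conv : ∀ A : ℝ, TendstoUniformlyOn (fun j => (P j).q) qi atTop (Icc 0 A)
  conv' : ∀ A : ℝ, TendstoUniformlyOn (fun j => deriv (P j).q) (deriv qi) atTop (Icc 0 A)
  /-- (L3) `N = |q|^n ≥ β/4` inside -/
  inside : ∀ r₀ < R, ∀ᶠ j in atTop, ∀ r ∈ Icc (0 : ℝ) r₀, β / 4 ≤ ‖(P j).q r‖ ^ (2 * m j)
  /-- (L4) -/
  Nbd : ∃ C : ℝ, ∀ j, ∀ r : ℝ, ‖(P j).q r‖ ^ (2 * m j) ≤ C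
  /-- (L5) `A' ≤ C / n²` up to `R + δ₁` -/
  mono : ∃ δ₁ C : ℝ, 0 < δ₁ ∧ ∀ᶠ j in atTop, ∀ r ∈ Icc (0 : ℝ) (R + δ₁),
    (m j : ℝ) ^ 2 * (conj ((P j).q r) * deriv (P j).q r).re ≤ C
  /-- (L6a) strictly below `1` outside, with the decay factor -/
  ext_lt : ∀ δ : ℝ, 0 < δ → ∃ θ : ℝ, θ < 1 ∧ ∀ᶠ j in atTop, ∀ s : ℝ, (R + δ) ^ 2 ≤ s →
    s ^ gam (m j) * ‖(P j).Θ s‖ ≤ θ
  /-- (L6b) uniform lower bound -/
  ext_ge : ∃ c : ℝ, 0 < c ∧ ∀ᶠ j in atTop, ∀ s : ℝ, 1 ≤ s → c ≤ s ^ gam (m j) * ‖(P j).Θ s‖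
  /-- (L6c) uniform symbol bounds outside -/
  ext_symb : ∀ δ : ℝ, 0 < δ → ∀ k : ℕ, ∃ C : ℝ, ∀ᶠ j in atTop, ∀ s : ℝ, (R + δ) ^ 2 ≤ s →
    ‖iteratedDeriv k (P j).Θ s‖ ≤ C * s ^ (-(gam (m j)) - (k : ℝ))

/-! ### Blow-up on the torus, Fourier side -/

abbrev Z12 := Fin 12 → ℤ
def nsq (k : Z12) : ℝ := ∑ i, (k i : ℝ) ^ 2
def wA (K : ℕ) (k : Z12) : ℝ := (1 + √(nsq k)) ^ K
def cv (a b : Z12 → ℂ) (k : Z12) : ℂ := ∑' j, a j * b (k - j)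
def cj (a : Z12 → ℂ) (k : Z12) : ℂ := conj (a (-k))
/-- coefficients of `|u|^{2m} u` -/
def nl : ℕ → (Z12 → ℂ) → Z12 → ℂ
  | 0, a => a
  | m + 1, a => cv (cv a (cj a)) (nl m a)

/-- mild solution in the Wiener algebra on `[0,T)` -/
def ASol (m : ℕ) (c : Z12 → ℂ) (T : ℝ) (u : ℝ → Z12 → ℂ) : Prop :=
  (∀ t ∈ Ico (0 : ℝ) T, Summable fun k => ‖u t k‖) ∧
  (∀ t ∈ Ico (0 : ℝ) T,
    Tendsto (fun t' => ∑' k, ‖u t' k - u t k‖) (𝓝[Ico (0 : ℝ) T] t) (𝓝 0)) ∧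
  ∀ t ∈ Ico (0 : ℝ) T, ∀ k, u t k = cexp (-I * nsq k * t) * c k
    - I * ∫ s in (0 : ℝ)..t, cexp (-I * nsq k * ((t : ℂ) - s)) * nl m (u s) k

def OpenBlowup (m : ℕ) : Prop :=
  ∃ (K : ℕ) (c₀ : Z12 → ℂ) (ρ : ℝ), 0 < ρ ∧ Summable (fun k => wA K k * ‖c₀ k‖) ∧
    ∀ c : Z12 → ℂ, Summable (fun k => wA K k * ‖c k - c₀ k‖) →
      ∑' k, wA K k * ‖c k - c₀ k‖ < ρ →
      ∃ (T : ℝ) (u : ℝ → Z12 → ℂ), 0 < T ∧ ASol m c T u ∧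
        ¬ BddAbove ((fun t => ∑' k, ‖u t k‖) '' Ico (0 : ℝ) T)

/-! ### The parts -/

def PartMI : Prop := Nonempty FreeData
def PartP : Prop := ∀ D : FreeData, Nonempty (Lim D)
def PartM : Prop := ∀ (D : FreeData) (L : Lim D), ∃ j, (L.P j).ModeStable
def PartR : Prop := ∀ (m : ℕ) (P : Prof m), 1 ≤ m → P.ModeStable → P.PDEStable
def PartLT : Prop := ∀ (m : ℕ) (P : Prof m), 1 ≤ m → P.PDEStable → OpenBlowup m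

theorem open_blowup (h1 : PartMI) (h2 : PartP) (h3 : PartM) (h4 : PartR) (h5 : PartLT)
    (M : ℕ) : ∃ m, M ≤ m ∧ 1 ≤ m ∧ OpenBlowup m := by
  obtain ⟨D⟩ := h1
  obtain ⟨L⟩ := h2 D
  obtain ⟨j₀, hj₀⟩ := (L.m_lim.eventually (eventually_ge_atTop M)).exists_forall_of_atTop
  let L' : Lim D :=
    { L with
      m := fun j => L.m (j + j₀)
      P := fun j => L.P (j + j₀)
      m_pos := fun j => L.m_pos _
      m_lim := L.m_lim.comp (tendsto_add_atTop_nat j₀)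
      β_lim := L.β_lim.comp (tendsto_add_atTop_nat j₀)
      conv := fun A u hu => (tendsto_add_atTop_nat j₀).eventually (L.conv A u hu)
      conv' := fun A u hu => (tendsto_add_atTop_nat j₀).eventually (L.conv' A u hu)
      inside := fun r hr => (tendsto_add_atTop_nat j₀).eventually (L.inside r hr)
      Nbd := L.Nbd.imp fun C h j => h _
      mono := L.mono.imp fun _ h => h.imp fun _ h =>
        ⟨h.1, (tendsto_add_atTop_nat j₀).eventually h.2⟩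
      ext_lt := fun δ hδ => (L.ext_lt δ hδ).imp fun _ h =>
        ⟨h.1, (tendsto_add_atTop_nat j₀).eventually h.2⟩
      ext_ge := L.ext_ge.imp fun _ h => ⟨h.1, (tendsto_add_atTop_nat j₀).eventually h.2⟩
      ext_symb := fun δ hδ k => (L.ext_symb δ hδ k).imp fun _ h =>
        (tendsto_add_atTop_nat j₀).eventually h }
  obtain ⟨j, hj⟩ := h3 D L'
  exact ⟨L.m (j + j₀), hj₀ _ (Nat.le_add_left _ _), L.m_pos _,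
    h5 _ _ (L.m_pos _) (h4 _ _ (L.m_pos _) hj)⟩

end P139
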