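import Mathlib

/-! P139 part MI: the integer disc arithmetic used by the certificates (definitions only).
All complex numbers are scaled by `SC = 2^32`. -/

namespace P139.MIC

/-- a closed disc with integer centre and radius -/
structure Dk where
  x : ℤ
  y : ℤ
  r : ℕ

def SC : ℕ := 4294967296

/-- one Newton step for the square root, rounded upwards -/
def nw (n y : ℕ) : ℕ := (y + n / y) / 2 + 1

/-- upper bound for the square root of `a² + b²` -/
def nq (a b : ℕ) : ℕ := nw (a * a + b * b) (nw (a * a + b * b) (a + b + 1))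

def nup (x y : ℤ) : ℕ := nq x.natAbs y.natAbs

def step3 (ra rv W : ℕ) (yx uy cx cy : ℤ) (r2 : ℕ) : Dk :=
  ⟨cx, cy, r2 + ra * (nup (cx - yx) (cy - uy) + r2 + rv) / (W - rv - ra) + 1⟩

def step2 (ax ay : ℤ) (ra rv W d : ℕ) (yx uy wx wy nx ny : ℤ) : Dk :=
  step3 ra rv W yx uy ((nx * wx + ny * wy) / d - ax) ((ny * wx - nx * wy) / d - ay)
    (nup nx ny * rv / d + 3)

def step1 (ax ay bx : ℤ) (ra rv : ℕ) (yx uy wx wy : ℤ) (n W : ℕ) : Option Dk :=
  bif Nat.blt (rv + ra) W then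
    some (step2 ax ay ra rv W (n - rv * rv) yx uy wx wy (ax * bx - ay * ay) (ay * (ax + bx)))
  else none

def step0 (ax ay bx : ℤ) (ra rv : ℕ) (yx uy wx wy : ℤ) (n : ℕ) : Option Dk :=
  step1 ax ay bx ra rv yx uy wx wy n (n / nup wx wy)

/-- enclosure of `a (a - M) / (a - M - i z - y) - a` -/
def step (M ax ay : ℤ) (ra : ℕ) (z0 : ℤ) (rz : ℕ) (d : Dk) : Option Dk :=
  step0 ax ay (ax - M) ra (d.r + rz) d.x (d.y + z0) (ax - M - d.x) (ay - (d.y + z0))
    ((ax - M - d.x).natAbs * (ax - M - d.x).natAbs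
      + (ay - (d.y + z0)).natAbs * (ay - (d.y + z0)).natAbs)

def first1 (ax ay bx : ℤ) (ra t : ℕ) (nx ny : ℤ) : Dk :=
  ⟨nx / t - ax, ny / t - ay, (nup nx ny + 2 * (ra * (nup (ax + bx) (2 * ay) + ra))) / t + ra + 3⟩

/-- enclosure of `a (a - M) u - a` for `u = 0` or `u = 1 / w`, `a.re - M / 2 ≤ w.re` -/
def first (M ax ay : ℤ) (ra : ℕ) : Option Dk :=
  bif Nat.blt 0 (2 * ax - 2 * ra - M).toNat then
    some (first1 ax ay (ax - M) ra (2 * ax - 2 * ra - M).toNat
      (ax * (ax - M) - ay * ay) (ay * (ax + (ax - M))))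
  else none

/-- `n` backward steps, from level `L + n` to level `L` -/
def back (M ax ay : ℤ) (ra : ℕ) (z0 : ℤ) (rz L : ℕ) : ℕ → Dk → Option Dk
  | 0, d => some d
  | n + 1, d =>
    match step M (ax + ((L + n) * SC : ℕ)) ay ra z0 rz d with
    | none => none
    | some e => back M ax ay ra z0 rz L n e

/-- forward steps from level `20 - n` until the disc lies in the upper half plane -/
def fwd (M ax ay : ℤ) (ra : ℕ) (z0 : ℤ) (rz : ℕ) : ℕ → Dk → Bool
  | 0, d => Nat.blt (2 * d.r + rz) (2 * d.y + z0).toNat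
  | n + 1, d =>
    bif Nat.blt (2 * d.r + rz) (2 * d.y + z0).toNat then true else
    match step M (ax + ((19 - n) * SC : ℕ)) ay ra z0 rz d with
    | none => false
    | some e => fwd M ax ay ra z0 rz n e

/-- enclosure at level `L`, starting from level `L + n + 1` -/
def start (M ax ay : ℤ) (ra : ℕ) (z0 : ℤ) (rz L n : ℕ) : Option Dk :=
  match first M (ax + ((L + n + 1) * SC : ℕ)) ay ra with
  | none => none
  | some e =>
    bif fwd M ax ay ra z0 rz (18 - (L + n)) e then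
      match first M (ax + ((L + n) * SC : ℕ)) ay ra with
      | none => none
      | some f => back M ax ay ra z0 rz L n f
    else none

def Dk.mul (p q : Dk) : Dk :=
  ⟨p.x * q.x - p.y * q.y, p.x * q.y + p.y * q.x, nup p.x p.y * q.r + nup q.x q.y * p.r + p.r * q.r⟩
def Dk.add (p q : Dk) : Dk := ⟨p.x + q.x, p.y + q.y, p.r + q.r⟩
def Dk.cj (p : Dk) : Dk := ⟨p.x, -p.y, p.r⟩
def Dk.nz (p : Dk) : Bool :=
  Nat.blt (p.r * p.r) (p.x.natAbs * p.x.natAbs + p.y.natAbs * p.y.natAbs)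

def Z0 : ℤ := 11618208658
def RZ : ℕ := 326417
def B0 : ℤ := 1437847676
def RB : ℕ := 68719

def dA (M ax ay : ℤ) (ra : ℕ) (d : Dk) : Dk := ⟨ax - M - d.x, ay - (d.y + Z0), ra + (d.r + RZ)⟩
def dB (ax ay : ℤ) (ra : ℕ) (d : Dk) : Dk := Dk.mul ⟨ax, ay, ra⟩ ⟨d.x, d.y + Z0, d.r + RZ⟩

def final (M ax ay ay' : ℤ) (ra : ℕ) (f g : Dk) : Bool :=
  (((dA M ax ay ra f).mul (dB ax ay' ra g).cj).add
    ((dA M ax ay' ra g).cj.mul (dB ax ay ra f))).nz

def check1 (M ax ay ay' : ℤ) (ra : ℕ) (F G : Dk) : Bool :=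
  match back M ax ay ra Z0 RZ 1 6 F with
  | none => false
  | some f =>
    match back M ax ay' ra Z0 RZ 1 6 G with
    | none => false
    | some g => final M ax ay ay' ra f g

/-- the square `[x, x + 2h] × [y, y + 2h]` -/
def check (l x y h : ℕ) (F G : Dk) : Bool :=
  check1 ((l + 5) * SC : ℕ) (x + h + l * 2147483648 : ℕ) ((y + h : ℕ) - B0) (-(y + h : ℕ) - B0)
    (h * 1449 / 1024 + 1 + RB) F G

def near (l x y h : ℕ) : Bool :=
  Nat.ble (y + 2 * h) 536870912 &&
    ((Nat.beq l 0 && (Nat.ble (x + 2 * h) 536870912 ||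
      (Nat.ble 3758096384 x && Nat.ble (x + 2 * h) 4831838208))) ||
    (Nat.beq l 1 && (Nat.ble 1610612736 x && Nat.ble (x + 2 * h) 2684354560)))

/-- adaptive cover of the square of half side `2 ^ n * 2 ^ 22` -/
def cover (l : ℕ) (F G : Dk) : ℕ → ℕ → ℕ → Bool
  | 0, x, y => near l x y 4194304 || check l x y 4194304 F G
  | n + 1, x, y => near l x y (2 ^ (n + 23)) || check l x y (2 ^ (n + 23)) F G ||
    (cover l F G n x y && cover l F G n (x + 2 ^ (n + 23)) y &&
      cover l F G n x (y + 2 ^ (n + 23)) && cover l F G n (x + 2 ^ (n + 23)) (y + 2 ^ (n + 23)))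

def root1 (l x y : ℕ) (M ax ay ay' : ℤ) (ra : ℕ) : Bool :=
  match start M ax ay ra Z0 RZ 7 2 with
  | none => false
  | some F =>
    match start M ax ay' ra Z0 RZ 7 2 with
    | none => false
    | some G => cover l F G 8 x y

/-- the square `[i/2, (i+1)/2] × [j/2, (j+1)/2]` -/
def root (l i j : ℕ) : Bool :=
  root1 l (i * 2147483648) (j * 2147483648) ((l + 5) * SC : ℕ)
    (i * 2147483648 + 1073741824 + l * 2147483648 : ℕ)
    ((j * 2147483648 + 1073741824 : ℕ) - B0) (-(j * 2147483648 + 1073741824 : ℕ) - B0)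
    (1073741824 * 1449 / 1024 + 1 + RB)

def col (l i : ℕ) : Bool := (List.range 10).all fun j => root l i j

/-- sign of `c₁ re + c₂ im` at level `0` for `l = 0`, `lam = 0` -/
def mir (c₁ c₂ b0 z0 : ℤ) (rb rz : ℕ) : Bool :=
  match start 21474836480 0 (-b0) rb z0 rz 0 14 with
  | none => false
  | some d => Nat.blt ((c₁.natAbs + c₂.natAbs) * d.r) (c₁ * d.x + c₂ * d.y).toNat

def mirAll : Bool :=
  (start 21474836480 0 (-1437846682) 60000 11618189691 120000 0 14).isSome &&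
  ((List.range 4).all fun i => mir 25 (-42) (1437801682 + 30000 * i : ℕ) 11618069691 15000 0 &&
    mir (-25) 42 (1437801682 + 30000 * i : ℕ) 11618309691 15000 0) &&
  ((List.range 8).all fun i => mir 0 1 1437786682 (11618084691 + 30000 * i : ℕ) 0 15000 &&
    mir 0 (-1) 1437906682 (11618084691 + 30000 * i : ℕ) 0 15000)

end P139.MIC
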